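import Vale.Agent.Lib.P339.Defs

namespace Vale.Agent.Results.P339.A_main

open Vale.Agent.Lib.P339 Finset

/-- Decoding of a right label to a Boolean value. -/
private def decodeLabel (j : Fin 6) : Bool := decide (3 ≤ j.val)

/-- The canonical right label of a Boolean value. -/
private def canon (b : Bool) : Fin 6 := if b then 3 else 0

/-- The local soundness of the gadget: if the five projections agree with right labels,
the decoded literals satisfy Not-Two. -/
private theorem local_sound :
    ∀ (a1 a2 : Fin 12) (n0 n1 n2 : Bool), T1t a1 = T2t a2 →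
      [xor (decodeLabel (flipLabel n0 (T1x a1))) n0,
       xor (decodeLabel (flipLabel n1 (T2y a2))) n1,
       xor (decodeLabel (flipLabel n2 (T2z a2))) n2].count true ≠ 2 := by
  decide

/-- Canonical labels of the first left vertex, as a function of the three literal values. -/
private def u1 : Bool → Bool → Bool → Fin 12
  | false, false, false => 0
  | true, false, false => 1
  | false, false, true => 2
  | false, true, false => 2
  | true, true, true => 3
  | _, _, _ => 0

/-- Canonical labels of the second left vertex, as a function of the three literal values. -/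
private def u2 : Bool → Bool → Bool → Fin 12
  | false, false, false => 0
  | true, false, false => 0
  | false, false, true => 4
  | false, true, false => 5
  | true, true, true => 8
  | _, _, _ => 0

/-- Canonical labels of the auxiliary vertex, as a function of the three literal values. -/
private def t0 : Bool → Bool → Bool → Fin 6
  | false, false, false => 0
  | true, false, false => 0
  | false, false, true => 2
  | false, true, false => 2
  | true, true, true => 4
  | _, _, _ => 0

/-- The local completeness of the gadget. -/
private theorem local_complete :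
    ∀ (l0 l1 l2 n0 n1 n2 : Bool), [l0, l1, l2].count true ≠ 2 →
      flipLabel n0 (T1x (u1 l0 l1 l2)) = canon (xor l0 n0) ∧
      T1t (u1 l0 l1 l2) = t0 l0 l1 l2 ∧
      T2t (u2 l0 l1 l2) = t0 l0 l1 l2 ∧
      flipLabel n1 (T2y (u2 l0 l1 l2)) = canon (xor l1 n1) ∧
      flipLabel n2 (T2z (u2 l0 l1 l2)) = canon (xor l2 n2) := by
  decide

section

variable {X C : Type} [Fintype C] (Φ : NTWInstance X C)

private theorem mass_le_one (A : C × Fin 2 → Fin (2 * 6)) (B : X ⊕ C → Fin 6) :
    (reduction Φ).satisfiedMass A B ≤ 1 := by
  have h : (reduction Φ).satisfiedMass A B ≤ ∑ e, (reduction Φ).μ e := by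
    unfold TwoToOneGame.satisfiedMass
    apply Finset.sum_le_sum
    intro e _
    split_ifs
    · exact le_rfl
    · exact (reduction Φ).μ_nonneg e
  rw [(reduction Φ).μ_sum] at h
  exact h

/-- A labeling loses at least a fifth of the weight of each clause violated by its decoding. -/
private theorem mass_le (A : C × Fin 2 → Fin (2 * 6)) (B : X ⊕ C → Fin 6) :
    (reduction Φ).satisfiedMass A B ≤
      4 / 5 + (1 / 5) * Φ.satisfiedMass (fun x => decodeLabel (B (Sum.inl x))) := by
  classical
  set σ : X → Bool := fun x => decodeLabel (B (Sum.inl x)) with hσ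
  have hc : ∀ c : C,
      (∑ i : Fin 5, if (reduction Φ).proj (c, i) (A ((reduction Φ).left (c, i)))
          = B ((reduction Φ).right (c, i)) then (reduction Φ).μ (c, i) else 0) ≤
        (4 / 5) * Φ.μ c + (1 / 5) * (if Φ.Holds σ c then Φ.μ c else 0) := by
    intro c
    have hμ := Φ.μ_nonneg c
    have hμ5 : ∀ i : Fin 5, (reduction Φ).μ (c, i) = Φ.μ c / 5 := fun _ => rfl
    by_cases hH : Φ.Holds σ c
    · rw [if_pos hH]
      calc (∑ i : Fin 5, if (reduction Φ).proj (c, i) (A ((reduction Φ).left (c, i)))
              = B ((reduction Φ).right (c, i)) then (reduction Φ).μ (c, i) else 0)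
          ≤ ∑ _i : Fin 5, Φ.μ c / 5 := by
            apply Finset.sum_le_sum
            intro i _
            split_ifs
            · exact le_of_eq (hμ5 i)
            · positivity
        _ = (4 / 5) * Φ.μ c + (1 / 5) * Φ.μ c := by
            simp only [Finset.sum_const, Finset.card_univ, Fintype.card_fin, nsmul_eq_mul]
            push_cast; ring
    · rw [if_neg hH]
      -- some edge is violated
      have hviol : ∃ i : Fin 5, (reduction Φ).proj (c, i) (A ((reduction Φ).left (c, i)))
          ≠ B ((reduction Φ).right (c, i)) := by
        by_contra hall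
        push Not at hall
        apply hH
        have e0 := hall 0
        have e1 := hall 1
        have e2 := hall 2
        have e3 := hall 3
        have e4 := hall 4
        have := local_sound (A (c, 0)) (A (c, 1)) (Φ.neg c 0) (Φ.neg c 1) (Φ.neg c 2)
          (e1.trans e2.symm)
        have e0' : flipLabel (Φ.neg c 0) (T1x (A (c, 0))) = B (Sum.inl (Φ.var c 0)) := e0
        have e3' : flipLabel (Φ.neg c 1) (T2y (A (c, 1))) = B (Sum.inl (Φ.var c 1)) := e3
        have e4' : flipLabel (Φ.neg c 2) (T2z (A (c, 1))) = B (Sum.inl (Φ.var c 2)) := e4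
        rw [e0', e3', e4'] at this
        exact this
      obtain ⟨i, hi⟩ := hviol
      calc (∑ j : Fin 5, if (reduction Φ).proj (c, j) (A ((reduction Φ).left (c, j)))
              = B ((reduction Φ).right (c, j)) then (reduction Φ).μ (c, j) else 0)
          ≤ ∑ j : Fin 5, (if j = i then 0 else Φ.μ c / 5) := by
            apply Finset.sum_le_sum
            intro j _
            by_cases hj : j = i
            · subst hj; simp [hi]
            · rw [if_neg hj]
              split_ifs
              · exact le_of_eq (hμ5 j)
              · positivity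
        _ = (4 / 5) * Φ.μ c + (1 / 5) * 0 := by
            rw [Finset.sum_ite]
            simp only [Finset.sum_const_zero, zero_add, Finset.sum_const, nsmul_eq_mul]
            have hcard' : ∀ i : Fin 5, (Finset.univ.filter fun j : Fin 5 => ¬ j = i).card = 4 := by
              decide
            have hcard := hcard' i
            rw [hcard]; push_cast; ring
  unfold TwoToOneGame.satisfiedMass NTWInstance.satisfiedMass
  rw [Fintype.sum_prod_type]
  calc _ ≤ ∑ c, ((4 / 5) * Φ.μ c + (1 / 5) * (if Φ.Holds σ c then Φ.μ c else 0)) :=
        Finset.sum_le_sum fun c _ => hc c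
    _ = _ := by
        rw [Finset.sum_add_distrib, ← Finset.mul_sum, ← Finset.mul_sum, Φ.μ_sum]
        ring

end

/-- **Gadget reduction from Max-Not-Two to 2-to-1 games with alphabets `[12]`, `[6]`.** -/
theorem result {X C : Type} [Fintype X] [Fintype C] (Φ : NTWInstance X C) :
    (Φ.Satisfiable → (reduction Φ).value = 1) ∧
      (reduction Φ).value ≤ 1 - (1 - Φ.value) / 5 := by
  classical
  have hbdd : BddAbove (Set.range fun σ : X → Bool => Φ.satisfiedMass σ) :=
    (Set.finite_range _).bddAbove
  constructor
  · rintro ⟨σ, hσ⟩
    apply le_antisymm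
    · exact ciSup_le fun p => mass_le_one Φ p.1 p.2
    · -- the canonical labeling satisfies everything
      let A : C × Fin 2 → Fin (2 * 6) := fun u =>
        if u.2 = 0 then u1 (Φ.lit σ u.1 0) (Φ.lit σ u.1 1) (Φ.lit σ u.1 2)
        else u2 (Φ.lit σ u.1 0) (Φ.lit σ u.1 1) (Φ.lit σ u.1 2)
      let B : X ⊕ C → Fin 6 := fun v =>
        match v with
        | Sum.inl x => canon (σ x)
        | Sum.inr c => t0 (Φ.lit σ c 0) (Φ.lit σ c 1) (Φ.lit σ c 2)
      have hmass : (reduction Φ).satisfiedMass A B = 1 := by
        unfold TwoToOneGame.satisfiedMass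
        have hall : ∀ e : C × Fin 5,
            (reduction Φ).proj e (A ((reduction Φ).left e)) = B ((reduction Φ).right e) := by
          rintro ⟨c, i⟩
          have hc := local_complete (Φ.lit σ c 0) (Φ.lit σ c 1) (Φ.lit σ c 2)
            (Φ.neg c 0) (Φ.neg c 1) (Φ.neg c 2) (hσ c)
          obtain ⟨h0, h1, h2, h3, h4⟩ := hc
          have hl : ∀ j : Fin 3, xor (Φ.lit σ c j) (Φ.neg c j) = σ (Φ.var c j) := by
            intro j; simp [NTWInstance.lit]
          rw [hl 0] at h0
          rw [hl 1] at h3
          rw [hl 2] at h4
          fin_cases i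
          · exact h0
          · exact h1
          · exact h2
          · exact h3
          · exact h4
        simp only [hall, if_true]
        exact (reduction Φ).μ_sum
      have hb : BddAbove (Set.range fun p : (C × Fin 2 → Fin (2 * 6)) × (X ⊕ C → Fin 6) =>
          (reduction Φ).satisfiedMass p.1 p.2) :=
        ⟨1, by rintro _ ⟨p, rfl⟩; exact mass_le_one Φ p.1 p.2⟩
      calc (1 : ℝ) = (reduction Φ).satisfiedMass A B := hmass.symm
        _ ≤ (reduction Φ).value :=
          le_ciSup hb (A, B)
  · refine ciSup_le fun p => ?_
    have h1 := mass_le Φ p.1 p.2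
    have h2 : Φ.satisfiedMass (fun x => decodeLabel (p.2 (Sum.inl x))) ≤ Φ.value :=
      le_ciSup hbdd _
    linarith

end Vale.Agent.Results.P339.A_main
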